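import Mathlib

/-!
The combinatorial core: a recursively built family of three-part slot systems in which
every integral assignment has a threshold with a large deficit.
-/

namespace Vale.Agent.P302

open Finset

/-- number of indices satisfying a predicate, as an integer -/
def cnt {ι : Type} [Fintype ι] (p : ι → Prop) [DecidablePred p] : ℤ :=
  ∑ a, if p a then 1 else 0

structure Gad where
  ι : Type
  fin : Fintype ι
  r : ι → ℤ
  D : ι → ℤ
  s : ι → ℤ
  l : ι → ℤ
  w : ℕ
  B : ℕ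

attribute [instance] Gad.fin

structure Good (G : Gad) (d N ε : ℕ) : Prop where
  cap : ∀ a, G.r a + G.l a = G.D a + G.s a
  r0 : ∀ a, 0 ≤ G.r a
  rD : ∀ a, G.r a ≤ G.D a
  Dw : ∀ a, G.D a ≤ G.w
  s0 : ∀ a, 0 ≤ G.s a
  lB : ∀ a, G.l a ≤ G.B
  main : ∀ y z : G.ι → ℤ, (∀ a, y a + z a ≤ G.r a + G.l a) →
    (∀ t : ℤ, t < G.B → 2 * cnt (fun a => z a ≤ t) ≤
      cnt (fun a => G.s a ≤ t) + cnt (fun a => G.l a ≤ t) + 2 * N) →
    ∃ t : ℤ, 0 ≤ t ∧ t ≤ G.w ∧
      cnt (fun a => t < y a) ≤ cnt (fun a => t < G.r a) + cnt (fun a => z a < -(ε : ℤ)) ∧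
      cnt (fun a => t < G.r a) + d ≤ cnt (fun a => t < G.D a)

lemma cnt_nonneg {ι : Type} [Fintype ι] (p : ι → Prop) [DecidablePred p] : 0 ≤ cnt p := by
  unfold cnt
  exact sum_nonneg fun a _ => by split_ifs <;> norm_num

lemma cnt_le_card {ι : Type} [Fintype ι] (p : ι → Prop) [DecidablePred p] :
    cnt p ≤ Fintype.card ι := by
  unfold cnt
  calc (∑ a, if p a then (1:ℤ) else 0) ≤ ∑ _a : ι, (1:ℤ) :=
        sum_le_sum fun a _ => by split_ifs <;> norm_num
    _ = Fintype.card ι := by simp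

lemma cnt_mono {ι : Type} [Fintype ι] {p q : ι → Prop} [DecidablePred p] [DecidablePred q]
    (h : ∀ a, p a → q a) : cnt p ≤ cnt q := by
  unfold cnt
  refine sum_le_sum fun a _ => ?_
  by_cases hp : p a
  · simp [hp, h a hp]
  · simp only [hp, if_false]; split_ifs <;> norm_num

lemma cnt_congr {ι : Type} [Fintype ι] {p q : ι → Prop} [DecidablePred p] [DecidablePred q]
    (h : ∀ a, p a ↔ q a) : cnt p = cnt q :=
  le_antisymm (cnt_mono fun a => (h a).1) (cnt_mono fun a => (h a).2)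

lemma cnt_eq_zero {ι : Type} [Fintype ι] {p : ι → Prop} [DecidablePred p]
    (h : ∀ a, ¬ p a) : cnt p = 0 := by
  unfold cnt
  exact sum_eq_zero fun a _ => by simp [h a]

lemma cnt_eq_card {ι : Type} [Fintype ι] {p : ι → Prop} [DecidablePred p]
    (h : ∀ a, p a) : cnt p = Fintype.card ι := by
  unfold cnt
  simp [h]

def emptyGad : Gad where
  ι := Empty
  fin := inferInstance
  r := fun _ => 0
  D := fun _ => 0
  s := fun _ => 0
  l := fun _ => 0
  w := 0
  B := 0

lemma good_zero (N ε : ℕ) : Good emptyGad 0 N ε where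
  cap := fun a => a.elim
  r0 := fun a => a.elim
  rD := fun a => a.elim
  Dw := fun a => a.elim
  s0 := fun a => a.elim
  lB := fun a => a.elim
  main := fun y z _ _ => by
    refine ⟨0, le_refl _, by simp [emptyGad], ?_, ?_⟩
    · have h1 : cnt (fun a => (0:ℤ) < y a) = 0 := cnt_eq_zero fun a => a.elim
      have h2 := cnt_nonneg (fun a => (0:ℤ) < emptyGad.r a)
      have h3 := cnt_nonneg (fun a => z a < -(ε : ℤ))
      omega
    · have h1 : cnt (fun a => (0:ℤ) < emptyGad.r a) = 0 := cnt_eq_zero fun a => a.elim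
      have h2 := cnt_nonneg (fun a => (0:ℤ) < emptyGad.D a)
      simp only [Nat.cast_zero]
      omega

lemma exists_seq (d M0 : ℕ) (H : ∀ N ε : ℕ, ∃ G : Gad, Good G d N ε) :
    ∃ (G : ℕ → Gad) (E M : ℕ → ℕ), E 0 = 0 ∧ (∀ k, E (k + 1) = E k + (G k).B) ∧ M 0 = M0 ∧
      (∀ k, M (k + 1) = M k + Fintype.card (G k).ι) ∧ ∀ k, Good (G k) d (M k) (E k) := by
  choose g hg using H
  let st : ℕ → ℕ × ℕ := fun k => Nat.rec (M0, 0)
    (fun _ p => (p.1 + Fintype.card (g p.1 p.2).ι, p.2 + (g p.1 p.2).B)) k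
  exact ⟨fun k => g (st k).1 (st k).2, fun k => (st k).2, fun k => (st k).1, rfl,
    fun _ => rfl, rfl, fun _ => rfl, fun k => hg _ _⟩

/-- the combined gadget -/
abbrev comb (K : ℕ) (G : ℕ → Gad) (E : ℕ → ℕ) (q W : ℕ) : Gad where
  ι := Fin K ⊕ (Σ k : Fin K, (G k).ι)
  fin := inferInstance
  r := Sum.elim (fun k => 4 * (q : ℤ) * (k : ℕ))
    (fun x => 4 * (q : ℤ) * (x.1 : ℕ) + 2 * q - W - 1 + (G x.1).r x.2)
  D := Sum.elim (fun k => 4 * (q : ℤ) * (k : ℕ) + 2 * q)
    (fun x => 4 * (q : ℤ) * (x.1 : ℕ) + 2 * q - W - 1 + (G x.1).D x.2)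
  s := Sum.elim (fun _ => 0) (fun x => 5 * (q : ℤ) + E x.1 + (G x.1).s x.2)
  l := Sum.elim (fun _ => 2 * (q : ℤ)) (fun x => 5 * (q : ℤ) + E x.1 + (G x.1).l x.2)
  w := 4 * q * K
  B := 5 * q + E K

lemma sum_comb {K : ℕ} {G : ℕ → Gad} (f : Fin K ⊕ (Σ k : Fin K, (G k).ι) → ℤ) :
    ∑ a, f a = ∑ k : Fin K, f (Sum.inl k) + ∑ k : Fin K, ∑ a : (G k).ι, f (Sum.inr ⟨k, a⟩) := by
  rw [Fintype.sum_sum_type, Fintype.sum_sigma]

lemma cnt_comb {K : ℕ} {G : ℕ → Gad} {E : ℕ → ℕ} {q W : ℕ} (p : (comb K G E q W).ι → Prop)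
    [DecidablePred p] :
    cnt p = cnt (fun k : Fin K => p (Sum.inl k)) +
      ∑ k : Fin K, cnt (fun a : (G k).ι => p (Sum.inr ⟨k, a⟩)) :=
  sum_comb _

lemma sum_ind_val (K m : ℕ) :
    (∑ k : Fin K, if (k : ℕ) = m then (1:ℤ) else 0) = if m < K then 1 else 0 := by
  split_ifs with h
  · rw [Finset.sum_eq_single (⟨m, h⟩ : Fin K)]
    · simp
    · intro b _ hb
      rw [if_neg]
      intro hb'
      exact hb (Fin.ext hb')
    · simp
  · refine sum_eq_zero fun k _ => ?_
    rw [if_neg]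
    have := k.2
    omega

lemma gap1 (q : ℕ) {j k : ℕ} (h : j < k) : 4 * (q : ℤ) * j + 4 * q ≤ 4 * (q : ℤ) * k := by
  have h1 : (j : ℤ) + 1 ≤ k := by exact_mod_cast h
  have h2 : (0:ℤ) ≤ q := Int.natCast_nonneg q
  nlinarith

lemma gap2 (q : ℕ) {j k : ℕ} (h : j + 1 < k) : 4 * (q : ℤ) * j + 8 * q ≤ 4 * (q : ℤ) * k := by
  have h1 : (j : ℤ) + 2 ≤ k := by exact_mod_cast h
  have h2 : (0:ℤ) ≤ q := Int.natCast_nonneg q
  nlinarith

lemma gap_succ (q : ℕ) {j k : ℕ} (h : j + 1 = k) : 4 * (q : ℤ) * j + 4 * q = 4 * (q : ℤ) * k := by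
  subst h
  push_cast
  ring

/-- per-anchor bound for a child -/
lemma child_bound (K q W S ε : ℕ) (hq : q = ε + S + W + 1) (j : Fin K) (y z : ℤ)
    (h : y + z ≤ 4 * (q : ℤ) * (j : ℕ) + 2 * q) :
    (∑ k : Fin K, ((if 4 * (q : ℤ) * (k : ℕ) + 2 * q - W - 1 < y then (1:ℤ) else 0) -
      (if 4 * (q : ℤ) * (k : ℕ) + 2 * q - W - 1 < 4 * (q : ℤ) * (j : ℕ) then (1:ℤ) else 0))) ≤
      K * (if z < -(ε : ℤ) then (1:ℤ) else 0) + (if z ≤ 2 * q - 1 then (1:ℤ) else 0) +
        (if z ≤ 5 * q - 1 then (1:ℤ) else 0) - 1 + (if (j : ℕ) = 0 then (1:ℤ) else 0) := by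
  have hq' : (q : ℤ) = ε + S + W + 1 := by exact_mod_cast hq
  have he : (0:ℤ) ≤ ε := Int.natCast_nonneg _
  have hS : (0:ℤ) ≤ S := Int.natCast_nonneg _
  have hW : (0:ℤ) ≤ W := Int.natCast_nonneg _
  by_cases h1 : z < -(ε : ℤ)
  · have : (∑ k : Fin K, ((if 4 * (q : ℤ) * (k : ℕ) + 2 * q - W - 1 < y then (1:ℤ) else 0) -
      (if 4 * (q : ℤ) * (k : ℕ) + 2 * q - W - 1 < 4 * (q : ℤ) * (j : ℕ) then (1:ℤ) else 0))) ≤
        ∑ _k : Fin K, (1:ℤ) := sum_le_sum fun k _ => by split_ifs <;> norm_num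
    simp only [sum_const, card_univ, Fintype.card_fin, nsmul_eq_mul, mul_one] at this
    rw [if_pos h1, if_pos (by omega : z ≤ 2 * q - 1), if_pos (by omega : z ≤ 5 * q - 1)]
    split_ifs <;> omega
  · rw [if_neg h1]
    by_cases h2 : z ≤ 2 * q - 1
    · have : (∑ k : Fin K, ((if 4 * (q : ℤ) * (k : ℕ) + 2 * q - W - 1 < y then (1:ℤ) else 0) -
        (if 4 * (q : ℤ) * (k : ℕ) + 2 * q - W - 1 < 4 * (q : ℤ) * (j : ℕ) then (1:ℤ) else 0))) ≤
          ∑ k : Fin K, (if (k : ℕ) = j then (1:ℤ) else 0) := by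
        refine sum_le_sum fun k _ => ?_
        rcases lt_trichotomy (k : ℕ) j with hk | hk | hk
        · have := gap1 q hk
          split_ifs <;> omega
        · split_ifs <;> omega
        · have := gap1 q hk
          split_ifs <;> omega
      rw [sum_ind_val, if_pos j.2] at this
      rw [if_pos h2, if_pos (by omega : z ≤ 5 * q - 1)]
      split_ifs <;> omega
    · rw [if_neg h2]
      by_cases h3 : z ≤ 5 * q - 1
      · have : (∑ k : Fin K, ((if 4 * (q : ℤ) * (k : ℕ) + 2 * q - W - 1 < y then (1:ℤ) else 0) -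
          (if 4 * (q : ℤ) * (k : ℕ) + 2 * q - W - 1 < 4 * (q : ℤ) * (j : ℕ) then (1:ℤ) else 0))) ≤
            0 := by
          refine sum_nonpos fun k _ => ?_
          split_ifs <;> omega
        rw [if_pos h3]
        split_ifs <;> omega
      · rw [if_neg h3]
        by_cases hj : (j : ℕ) = 0
        · have : (∑ k : Fin K, ((if 4 * (q : ℤ) * (k : ℕ) + 2 * q - W - 1 < y then (1:ℤ) else 0) -
            (if 4 * (q : ℤ) * (k : ℕ) + 2 * q - W - 1 < 4 * (q : ℤ) * (j : ℕ) then (1:ℤ) else 0))) ≤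
              0 := by
            refine sum_nonpos fun k _ => ?_
            split_ifs <;> omega
          rw [if_pos hj]
          omega
        · have : (∑ k : Fin K, ((if 4 * (q : ℤ) * (k : ℕ) + 2 * q - W - 1 < y then (1:ℤ) else 0) -
            (if 4 * (q : ℤ) * (k : ℕ) + 2 * q - W - 1 < 4 * (q : ℤ) * (j : ℕ) then (1:ℤ) else 0))) ≤
              ∑ k : Fin K, - (if (k : ℕ) = j - 1 then (1:ℤ) else 0) := by
            refine sum_le_sum fun k _ => ?_
            by_cases hk : (k : ℕ) = j - 1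
            · have := gap_succ q (by omega : (k : ℕ) + 1 = j)
              split_ifs <;> omega
            · split_ifs <;> omega
          rw [sum_neg_distrib, sum_ind_val, if_pos (by have := j.2; omega)] at this
          rw [if_neg hj]
          omega

/-- per-anchor bound for a descendant -/
lemma desc_bound (K q W S ε : ℕ) (hq : q = ε + S + W + 1) (j : Fin K) (y z r : ℤ)
    (hr1 : 4 * (q : ℤ) * (j : ℕ) + 2 * q - W - 1 ≤ r)
    (h : y + z ≤ 4 * (q : ℤ) * (j : ℕ) + 2 * q - W - 1 + 5 * q + S + W) :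
    (∑ k : Fin K, if j = k then (if z ≤ 5 * q - 1 then (1:ℤ) else 0) else
      ((if 4 * (q : ℤ) * (k : ℕ) + 2 * q - W - 1 < y then (1:ℤ) else 0) -
      (if 4 * (q : ℤ) * (k : ℕ) + 2 * q - W - 1 < r then (1:ℤ) else 0))) ≤
      K * (if z < -(ε : ℤ) then (1:ℤ) else 0) + (if z ≤ 2 * q - 1 then (1:ℤ) else 0) +
        (if z ≤ 5 * q - 1 then (1:ℤ) else 0) := by
  have hq' : (q : ℤ) = ε + S + W + 1 := by exact_mod_cast hq
  have he : (0:ℤ) ≤ ε := Int.natCast_nonneg _
  have hS : (0:ℤ) ≤ S := Int.natCast_nonneg _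
  have hW : (0:ℤ) ≤ W := Int.natCast_nonneg _
  by_cases h1 : z < -(ε : ℤ)
  · have : (∑ k : Fin K, if j = k then (if z ≤ 5 * q - 1 then (1:ℤ) else 0) else
      ((if 4 * (q : ℤ) * (k : ℕ) + 2 * q - W - 1 < y then (1:ℤ) else 0) -
      (if 4 * (q : ℤ) * (k : ℕ) + 2 * q - W - 1 < r then (1:ℤ) else 0))) ≤
        ∑ _k : Fin K, (1:ℤ) := sum_le_sum fun k _ => by split_ifs <;> norm_num
    simp only [sum_const, card_univ, Fintype.card_fin, nsmul_eq_mul, mul_one] at this
    rw [if_pos h1]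
    have h2 : (0:ℤ) ≤ (if z ≤ 2 * q - 1 then (1:ℤ) else 0) := by split_ifs <;> norm_num
    have h3 : (0:ℤ) ≤ (if z ≤ 5 * q - 1 then (1:ℤ) else 0) := by split_ifs <;> norm_num
    omega
  · rw [if_neg h1]
    by_cases h2 : z ≤ 2 * q - 1
    · have h3 : z ≤ 5 * q - 1 := by omega
      have : (∑ k : Fin K, if j = k then (if z ≤ 5 * q - 1 then (1:ℤ) else 0) else
        ((if 4 * (q : ℤ) * (k : ℕ) + 2 * q - W - 1 < y then (1:ℤ) else 0) -
        (if 4 * (q : ℤ) * (k : ℕ) + 2 * q - W - 1 < r then (1:ℤ) else 0))) ≤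
          ∑ k : Fin K, ((if (k : ℕ) = j then (1:ℤ) else 0) +
            (if (k : ℕ) = j + 1 then (1:ℤ) else 0)) := by
        refine sum_le_sum fun k _ => ?_
        by_cases hjk : j = k
        · subst hjk
          simp [h3]
        · have hjk' : (j : ℕ) ≠ k := fun h => hjk (Fin.ext h)
          rw [if_neg hjk]
          rcases lt_trichotomy (k : ℕ) (j + 1) with hk | hk | hk
          · have := gap1 q (by omega : (k : ℕ) < j)
            split_ifs <;> omega
          · split_ifs <;> omega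
          · have := gap2 q hk
            split_ifs <;> omega
      rw [sum_add_distrib, sum_ind_val, sum_ind_val, if_pos j.2] at this
      rw [if_pos h2, if_pos h3] at *
      split_ifs at this <;> omega
    · rw [if_neg h2]
      have : (∑ k : Fin K, if j = k then (if z ≤ 5 * q - 1 then (1:ℤ) else 0) else
        ((if 4 * (q : ℤ) * (k : ℕ) + 2 * q - W - 1 < y then (1:ℤ) else 0) -
        (if 4 * (q : ℤ) * (k : ℕ) + 2 * q - W - 1 < r then (1:ℤ) else 0))) ≤
          ∑ k : Fin K, (if j = k then (if z ≤ 5 * q - 1 then (1:ℤ) else 0) else 0) := by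
        refine sum_le_sum fun k _ => ?_
        by_cases hjk : j = k
        · simp [hjk]
        · have hjk' : (j : ℕ) ≠ k := fun h => hjk (Fin.ext h)
          rw [if_neg hjk, if_neg hjk]
          rcases lt_trichotomy (k : ℕ) j with hk | hk | hk
          · have := gap1 q hk
            split_ifs <;> omega
          · omega
          · have := gap1 q hk
            split_ifs <;> omega
      rw [Finset.sum_ite_eq, if_pos (mem_univ _)] at this
      omega

lemma cnt_sub {ι : Type} [Fintype ι] (p q : ι → Prop) [DecidablePred p] [DecidablePred q] :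
    cnt p - cnt q = ∑ a, ((if p a then (1:ℤ) else 0) - (if q a then (1:ℤ) else 0)) := by
  unfold cnt
  rw [sum_sub_distrib]

/-- the averaging step: some child window has small deficit outside its subtree -/
lemma exists_window (K q W N ε : ℕ) (hK : K = 4 * N + 4) (G : ℕ → Gad) (E : ℕ → ℕ)
    (hq : q = ε + E K + W + 1)
    (hr0 : ∀ k : Fin K, ∀ a, 0 ≤ (G k).r a) (hs0 : ∀ k : Fin K, ∀ a, 0 ≤ (G k).s a)
    (hl0 : ∀ k : Fin K, ∀ a, 0 ≤ (G k).l a)
    (hcap : ∀ k : Fin K, ∀ a, (G k).r a + (G k).l a + E k ≤ W + E K)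
    (y z : (comb K G E q W).ι → ℤ)
    (hyz : ∀ a, y a + z a ≤ (comb K G E q W).r a + (comb K G E q W).l a)
    (hz : ∀ t : ℤ, t < (comb K G E q W).B → 2 * cnt (fun a => z a ≤ t) ≤
      cnt (fun a => (comb K G E q W).s a ≤ t) + cnt (fun a => (comb K G E q W).l a ≤ t) + 2 * N) :
    ∃ k : Fin K,
      (∑ j : Fin K, ((if 4 * (q : ℤ) * (k : ℕ) + 2 * q - W - 1 < y (Sum.inl j) then (1:ℤ) else 0) -
        (if 4 * (q : ℤ) * (k : ℕ) + 2 * q - W - 1 < 4 * (q : ℤ) * (j : ℕ) then (1:ℤ) else 0))) +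
      (∑ j : Fin K, ∑ x : (G j).ι,
        if j = k then (if z (Sum.inr ⟨j, x⟩) ≤ 5 * q - 1 then (1:ℤ) else 0) else
        ((if 4 * (q : ℤ) * (k : ℕ) + 2 * q - W - 1 < y (Sum.inr ⟨j, x⟩) then (1:ℤ) else 0) -
        (if 4 * (q : ℤ) * (k : ℕ) + 2 * q - W - 1 <
          4 * (q : ℤ) * (j : ℕ) + 2 * q - W - 1 + (G j).r x then (1:ℤ) else 0))) ≤
      cnt (fun a => z a < -(ε : ℤ)) := by
  have hq' : (q : ℤ) = ε + E K + W + 1 := by exact_mod_cast hq
  have he : (0:ℤ) ≤ ε := Int.natCast_nonneg _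
  have hS : (0:ℤ) ≤ E K := Int.natCast_nonneg _
  have hW : (0:ℤ) ≤ W := Int.natCast_nonneg _
  by_contra hcon
  push Not at hcon
  have hlow := sum_le_sum (s := (univ : Finset (Fin K))) fun k _ => Int.add_one_le_of_lt (hcon k)
  simp only [sum_const, card_univ, Fintype.card_fin, nsmul_eq_mul] at hlow
  rw [sum_add_distrib, sum_comm] at hlow
  have e2 : (∑ k : Fin K, ∑ j : Fin K, ∑ x : (G j).ι,
        if j = k then (if z (Sum.inr ⟨j, x⟩) ≤ 5 * q - 1 then (1:ℤ) else 0) else
        ((if 4 * (q : ℤ) * (k : ℕ) + 2 * q - W - 1 < y (Sum.inr ⟨j, x⟩) then (1:ℤ) else 0) -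
        (if 4 * (q : ℤ) * (k : ℕ) + 2 * q - W - 1 <
          4 * (q : ℤ) * (j : ℕ) + 2 * q - W - 1 + (G j).r x then (1:ℤ) else 0))) ≤
      ∑ j : Fin K, ∑ x : (G j).ι,
        (K * (if z (Sum.inr ⟨j, x⟩) < -(ε : ℤ) then (1:ℤ) else 0) +
          (if z (Sum.inr ⟨j, x⟩) ≤ 2 * q - 1 then (1:ℤ) else 0) +
          (if z (Sum.inr ⟨j, x⟩) ≤ 5 * q - 1 then (1:ℤ) else 0)) := by
    rw [sum_comm]
    refine sum_le_sum fun j _ => ?_
    rw [sum_comm]
    refine sum_le_sum fun x _ => ?_
    refine desc_bound K q W (E K) ε hq j _ _ _ ?_ ?_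
    · have := hr0 j x
      omega
    · have h1 := hyz (Sum.inr ⟨j, x⟩)
      have h2 := hcap j x
      simp only [Sum.elim_inr] at h1
      omega
  have e1 : (∑ j : Fin K, ∑ k : Fin K,
      ((if 4 * (q : ℤ) * (k : ℕ) + 2 * q - W - 1 < y (Sum.inl j) then (1:ℤ) else 0) -
        (if 4 * (q : ℤ) * (k : ℕ) + 2 * q - W - 1 < 4 * (q : ℤ) * (j : ℕ) then (1:ℤ) else 0))) ≤
      ∑ j : Fin K, (K * (if z (Sum.inl j) < -(ε : ℤ) then (1:ℤ) else 0) +
        (if z (Sum.inl j) ≤ 2 * q - 1 then (1:ℤ) else 0) +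
        (if z (Sum.inl j) ≤ 5 * q - 1 then (1:ℤ) else 0) - 1 +
        (if (j : ℕ) = 0 then (1:ℤ) else 0)) := by
    refine sum_le_sum fun j _ => ?_
    refine child_bound K q W (E K) ε hq j _ _ ?_
    have h1 := hyz (Sum.inl j)
    simp only [Sum.elim_inl] at h1
    exact h1
  have c1 : cnt (fun a => z a < -(ε : ℤ)) =
      (∑ j : Fin K, (if z (Sum.inl j) < -(ε : ℤ) then (1:ℤ) else 0)) +
      ∑ j : Fin K, ∑ x : (G j).ι, (if z (Sum.inr ⟨j, x⟩) < -(ε : ℤ) then (1:ℤ) else 0) :=
    sum_comb _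
  have c2 : cnt (fun a => z a ≤ 2 * q - 1) =
      (∑ j : Fin K, (if z (Sum.inl j) ≤ 2 * q - 1 then (1:ℤ) else 0)) +
      ∑ j : Fin K, ∑ x : (G j).ι, (if z (Sum.inr ⟨j, x⟩) ≤ 2 * q - 1 then (1:ℤ) else 0) :=
    sum_comb _
  have c3 : cnt (fun a => z a ≤ 5 * q - 1) =
      (∑ j : Fin K, (if z (Sum.inl j) ≤ 5 * q - 1 then (1:ℤ) else 0)) +
      ∑ j : Fin K, ∑ x : (G j).ι, (if z (Sum.inr ⟨j, x⟩) ≤ 5 * q - 1 then (1:ℤ) else 0) :=
    sum_comb _
  simp only [sum_add_distrib, sum_sub_distrib, ← mul_sum, sum_ind_val, sum_const, card_univ,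
    Fintype.card_fin, nsmul_eq_mul, mul_one] at e1 e2
  have hB : ((comb K G E q W).B : ℤ) = 5 * q + E K := by simp
  have z2 := hz (2 * q - 1) (by rw [hB]; omega)
  have z5 := hz (5 * q - 1) (by rw [hB]; omega)
  have s2 : ∀ t : ℤ, t < 5 * q → cnt (fun a => (comb K G E q W).s a ≤ t) ≤ K := by
    intro t ht
    have := cnt_comb (fun a : (comb K G E q W).ι => (comb K G E q W).s a ≤ t)
    refine this.le.trans ?_
    have a1 := cnt_le_card (fun k : Fin K => (comb K G E q W).s (Sum.inl k) ≤ t)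
    have a2 : (∑ k : Fin K, cnt (fun a : (G k).ι => (comb K G E q W).s (Sum.inr ⟨k, a⟩) ≤ t)) = 0 := by
      refine sum_eq_zero fun k _ => cnt_eq_zero fun a => ?_
      have := hs0 k a
      have h0 : (0:ℤ) ≤ E k := Int.natCast_nonneg _
      simp only [Sum.elim_inr]
      omega
    rw [Fintype.card_fin] at a1
    omega
  have l0 : ∀ t : ℤ, t < 5 * q →
      (∑ k : Fin K, cnt (fun a : (G k).ι => (comb K G E q W).l (Sum.inr ⟨k, a⟩) ≤ t)) = 0 := by
    intro t ht
    refine sum_eq_zero fun k _ => cnt_eq_zero fun a => ?_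
    have := hl0 k a
    have h0 : (0:ℤ) ≤ E k := Int.natCast_nonneg _
    simp only [Sum.elim_inr]
    omega
  have l2 : cnt (fun a => (comb K G E q W).l a ≤ 2 * q - 1) ≤ 0 := by
    have := cnt_comb (fun a : (comb K G E q W).ι => (comb K G E q W).l a ≤ 2 * q - 1)
    refine this.le.trans ?_
    have a1 : cnt (fun k : Fin K => (comb K G E q W).l (Sum.inl k) ≤ 2 * q - 1) = 0 := by
      refine cnt_eq_zero fun k => ?_
      simp only [Sum.elim_inl]
      omega
    have a2 := l0 (2 * q - 1) (by omega)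
    omega
  have l5 : cnt (fun a => (comb K G E q W).l a ≤ 5 * q - 1) ≤ K := by
    have := cnt_comb (fun a : (comb K G E q W).ι => (comb K G E q W).l a ≤ 5 * q - 1)
    refine this.le.trans ?_
    have a1 := cnt_le_card (fun k : Fin K => (comb K G E q W).l (Sum.inl k) ≤ 5 * q - 1)
    have a2 := l0 (5 * q - 1) (by omega)
    rw [Fintype.card_fin] at a1
    omega
  have s2' := s2 (2 * q - 1) (by omega)
  have s5' := s2 (5 * q - 1) (by omega)
  have hK' : (K : ℤ) = 4 * N + 4 := by exact_mod_cast hK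
  rw [if_pos (by omega : 0 < K)] at e1
  rw [c1] at hlow
  simp only [sum_sub_distrib] at hlow
  rw [mul_add, mul_add, mul_one] at hlow
  omega

lemma sum_split {K : ℕ} (k : Fin K) (f g : Fin K → ℤ) (h : ∀ j, j ≠ k → f j ≤ g j)
    (hk : f k ≤ g k) : ∑ j, f j ≤ ∑ j, g j :=
  sum_le_sum fun j _ => by
    by_cases hj : j = k
    · subst hj; exact hk
    · exact h j hj

lemma good_step (d N ε : ℕ) (H : ∀ N ε : ℕ, ∃ G : Gad, Good G d N ε) :
    ∃ G : Gad, Good G (d + 1) N ε := by
  obtain ⟨K, hK⟩ : ∃ K, K = 4 * N + 4 := ⟨_, rfl⟩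
  obtain ⟨G, E, M, hE0, hE, hM0, hM, hG⟩ := exists_seq d (N + K) H
  obtain ⟨W, hWdef⟩ : ∃ W, W = ∑ k : Fin K, (G k).w := ⟨_, rfl⟩
  obtain ⟨q, hq⟩ : ∃ q, q = ε + E K + W + 1 := ⟨_, rfl⟩
  have hq' : (q : ℤ) = ε + E K + W + 1 := by exact_mod_cast hq
  have he : (0:ℤ) ≤ ε := Int.natCast_nonneg _
  have hS : (0:ℤ) ≤ E K := Int.natCast_nonneg _
  have hW : (0:ℤ) ≤ W := Int.natCast_nonneg _
  have hEmono : Monotone E := monotone_nat_of_le_succ fun k => by rw [hE]; omega
  have hEB : ∀ j k : ℕ, j < k → (E j : ℤ) + (G j).B ≤ E k := by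
    intro j k hjk
    have := hEmono (show j + 1 ≤ k from hjk)
    rw [hE] at this
    exact_mod_cast this
  have hwW : ∀ k : Fin K, ((G k).w : ℤ) ≤ W := by
    intro k
    have : (G k).w ≤ W := by
      rw [hWdef]
      exact single_le_sum (f := fun k : Fin K => (G k).w) (fun _ _ => Nat.zero_le _) (mem_univ k)
    exact_mod_cast this
  have hMsum : ∀ k, (M k : ℤ) = N + K + ∑ j ∈ range k, (Fintype.card (G j).ι : ℤ) := by
    intro k
    induction k with
    | zero => simp [hM0]
    | succ k ih => rw [hM, sum_range_succ]; push_cast; rw [ih]; ring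
  have hp0 : ∀ k : ℕ, (0:ℤ) ≤ 4 * (q : ℤ) * k := fun k => by positivity
  refine ⟨comb K G E q W, ?_, ?_, ?_, ?_, ?_, ?_, ?_⟩
  · rintro (k | ⟨k, x⟩)
    · simp
    · have := (hG k).cap x
      simp only [Sum.elim_inr]
      omega
  · rintro (k | ⟨k, x⟩)
    · simp only [Sum.elim_inl]
      exact hp0 k
    · have := (hG k).r0 x
      have := hp0 k
      simp only [Sum.elim_inr]
      omega
  · rintro (k | ⟨k, x⟩)
    · simp only [Sum.elim_inl]
      omega
    · have := (hG k).rD x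
      simp only [Sum.elim_inr]
      omega
  · rintro (k | ⟨k, x⟩)
    · have := gap1 q k.2
      simp only [Sum.elim_inl]
      push_cast
      omega
    · have := (hG k).Dw x
      have := hwW k
      have := gap1 q k.2
      simp only [Sum.elim_inr]
      push_cast
      omega
  · rintro (k | ⟨k, x⟩)
    · simp
    · have := (hG k).s0 x
      have : (0:ℤ) ≤ E k := Int.natCast_nonneg _
      simp only [Sum.elim_inr]
      omega
  · rintro (k | ⟨k, x⟩)
    · simp only [Sum.elim_inl]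
      push_cast
      omega
    · have := (hG k).lB x
      have := hEB k K k.2
      simp only [Sum.elim_inr]
      push_cast
      omega
  · intro y z hyz hz
    have hl0 : ∀ k : Fin K, ∀ a, 0 ≤ (G k).l a := by
      intro k a
      have := (hG k).cap a
      have := (hG k).rD a
      have := (hG k).s0 a
      omega
    have hsl : ∀ k : Fin K, ∀ a, (G k).s a ≤ (G k).l a := by
      intro k a
      have := (hG k).cap a
      have := (hG k).rD a
      omega
    obtain ⟨k, hk⟩ := exists_window K q W N ε hK G E hq (fun k => (hG k).r0) (fun k => (hG k).s0)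
      hl0 (fun k a => by
        have := (hG k).cap a
        have := (hG k).Dw a
        have := hwW k
        have := (hG k).lB a
        have := hsl k a
        have := hEB k K k.2
        omega) y z hyz hz
    obtain ⟨t, ht0, htw, ht1, ht2⟩ := (hG k).main
      (fun x => y (Sum.inr ⟨k, x⟩) - (4 * (q : ℤ) * (k : ℕ) + 2 * q - W - 1))
      (fun x => z (Sum.inr ⟨k, x⟩) - (5 * q + E k))
      (fun x => by
        have := hyz (Sum.inr ⟨k, x⟩)
        simp only [Sum.elim_inr] at this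
        omega)
      (fun t ht => by
        have hB : ((comb K G E q W).B : ℤ) = 5 * q + E K := by simp
        have hEk := hEB k K k.2
        have h1 := hz (5 * q + E k + t) (by rw [hB]; omega)
        rw [cnt_comb, cnt_comb, cnt_comb] at h1
        have a1 := cnt_nonneg (fun j : Fin K => z (Sum.inl j) ≤ 5 * q + E k + t)
        have a2 : cnt (fun x : (G k).ι => z (Sum.inr ⟨k, x⟩) - (5 * q + E k) ≤ t) ≤
            ∑ j : Fin K, cnt (fun x : (G j).ι => z (Sum.inr ⟨j, x⟩) ≤ 5 * q + E k + t) := by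
          refine le_trans (cnt_mono fun x hx => ?_) (single_le_sum
            (f := fun j : Fin K => cnt (fun x : (G j).ι => z (Sum.inr ⟨j, x⟩) ≤ 5 * q + E k + t))
            (fun _ _ => cnt_nonneg _) (mem_univ k))
          omega
        have a3 := cnt_le_card (fun j : Fin K => (comb K G E q W).s (Sum.inl j) ≤ 5 * q + E k + t)
        have a4 := cnt_le_card (fun j : Fin K => (comb K G E q W).l (Sum.inl j) ≤ 5 * q + E k + t)
        rw [Fintype.card_fin] at a3 a4
        have key : ∀ (v : (j : Fin K) → (G j).ι → ℤ), (∀ j x, 0 ≤ v j x) →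
            (∑ j : Fin K, cnt (fun x : (G j).ι => 5 * (q : ℤ) + E j + v j x ≤ 5 * q + E k + t)) ≤
              cnt (fun x : (G k).ι => v k x ≤ t) +
                ∑ j ∈ range k, (Fintype.card (G j).ι : ℤ) := by
          intro v hv
          have b1 : (∑ j : Fin K, cnt (fun x : (G j).ι => 5 * (q : ℤ) + E j + v j x ≤ 5 * q + E k + t)) ≤
              ∑ j : Fin K, ((if j = k then cnt (fun x : (G k).ι => v k x ≤ t) else 0) +
                (if (j : ℕ) < k then (Fintype.card (G j).ι : ℤ) else 0)) := by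
            refine sum_le_sum fun j _ => ?_
            rcases lt_trichotomy (j : ℕ) k with hj | hj | hj
            · rw [if_neg (fun h => by rw [h] at hj; omega), if_pos hj, zero_add]
              exact cnt_le_card _
            · have hj' : j = k := Fin.ext hj
              subst hj'
              rw [if_pos rfl, if_neg (lt_irrefl _), add_zero]
              exact cnt_mono fun x hx => by omega
            · rw [if_neg (fun h => by rw [h] at hj; omega), if_neg (by omega), add_zero]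
              refine (cnt_eq_zero fun x hx => ?_).le
              have := hv j x
              have := hEB k j hj
              omega
          rw [sum_add_distrib, Finset.sum_ite_eq' univ k, if_pos (mem_univ _)] at b1
          refine b1.trans (le_of_eq ?_)
          congr 1
          rw [Fin.sum_univ_eq_sum_range (fun j => if j < (k : ℕ) then (Fintype.card (G j).ι : ℤ) else 0) K,
            ← sum_filter]
          refine sum_congr ?_ fun _ _ => rfl
          ext j
          have := k.2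
          simp only [mem_filter, mem_range]
          omega
        have a5 : (∑ j : Fin K, cnt (fun x : (G j).ι =>
            (comb K G E q W).s (Sum.inr ⟨j, x⟩) ≤ 5 * q + E k + t)) ≤
            cnt (fun x : (G k).ι => (G k).s x ≤ t) + ∑ j ∈ range k, (Fintype.card (G j).ι : ℤ) :=
          key (fun j x => (G j).s x) (fun j x => (hG j).s0 x)
        have a6 : (∑ j : Fin K, cnt (fun x : (G j).ι =>
            (comb K G E q W).l (Sum.inr ⟨j, x⟩) ≤ 5 * q + E k + t)) ≤
            cnt (fun x : (G k).ι => (G k).l x ≤ t) + ∑ j ∈ range k, (Fintype.card (G j).ι : ℤ) :=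
          key (fun j x => (G j).l x) hl0
        have a7 := hMsum k
        omega)
    have hwk := hwW k
    refine ⟨4 * (q : ℤ) * (k : ℕ) + 2 * q - W - 1 + t, ?_, ?_, ?_, ?_⟩
    · have := hp0 k
      omega
    · have := gap1 q k.2
      push_cast
      omega
    · refine le_trans ?_ (add_le_add_right hk _)
      rw [← sub_le_iff_le_add', cnt_sub, sum_comb]
      refine add_le_add (sum_le_sum fun j _ => ?_) (sum_split k _ _ (fun j hj => ?_) ?_)
      · simp only [Sum.elim_inl]
        rcases le_or_gt (j : ℕ) k with hj | hj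
        · have : 4 * (q : ℤ) * (j : ℕ) ≤ 4 * (q : ℤ) * (k : ℕ) := by
            have : ((j : ℕ) : ℤ) ≤ (k : ℕ) := by exact_mod_cast hj
            have : (0:ℤ) ≤ q := Int.natCast_nonneg _
            nlinarith
          split_ifs <;> omega
        · have := gap1 q hj
          split_ifs <;> omega
      · refine sum_le_sum fun x _ => ?_
        rw [if_neg hj]
        simp only [Sum.elim_inr]
        have := (hG j).r0 x
        have := (hG j).rD x
        have := (hG j).Dw x
        have := hwW j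
        rcases lt_trichotomy (j : ℕ) k with hj' | hj' | hj'
        · have := gap1 q hj'
          split_ifs <;> omega
        · exact absurd (Fin.ext hj') hj
        · have := gap1 q hj'
          split_ifs <;> omega
      · rw [← sub_le_iff_le_add', cnt_sub] at ht1
        refine le_trans (sum_le_sum fun x _ => ?_) (ht1.trans (sum_le_sum fun x _ => ?_))
        · simp only [Sum.elim_inr]
          split_ifs <;> omega
        · rw [if_pos rfl]
          split_ifs <;> omega
    · rw [← le_sub_iff_add_le', cnt_sub, sum_comb]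
      have b1 : (1:ℤ) ≤ ∑ j : Fin K,
          ((if 4 * (q : ℤ) * (k : ℕ) + 2 * q - W - 1 + t < (comb K G E q W).D (Sum.inl j)
            then (1:ℤ) else 0) -
          (if 4 * (q : ℤ) * (k : ℕ) + 2 * q - W - 1 + t < (comb K G E q W).r (Sum.inl j)
            then (1:ℤ) else 0)) := by
        refine le_trans ?_ (single_le_sum (f := fun j : Fin K =>
          ((if 4 * (q : ℤ) * (k : ℕ) + 2 * q - W - 1 + t < (comb K G E q W).D (Sum.inl j)
            then (1:ℤ) else 0) -
          (if 4 * (q : ℤ) * (k : ℕ) + 2 * q - W - 1 + t < (comb K G E q W).r (Sum.inl j)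
            then (1:ℤ) else 0))) (fun j _ => ?_) (mem_univ k))
        · simp only [Sum.elim_inl]
          split_ifs <;> omega
        · simp only [Sum.elim_inl]
          split_ifs <;> omega
      have b2 : (d:ℤ) ≤ ∑ j : Fin K, ∑ x : (G j).ι,
          ((if 4 * (q : ℤ) * (k : ℕ) + 2 * q - W - 1 + t < (comb K G E q W).D (Sum.inr ⟨j, x⟩)
            then (1:ℤ) else 0) -
          (if 4 * (q : ℤ) * (k : ℕ) + 2 * q - W - 1 + t < (comb K G E q W).r (Sum.inr ⟨j, x⟩)
            then (1:ℤ) else 0)) := by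
        refine le_trans ?_ (single_le_sum (f := fun j : Fin K => ∑ x : (G j).ι,
          ((if 4 * (q : ℤ) * (k : ℕ) + 2 * q - W - 1 + t < (comb K G E q W).D (Sum.inr ⟨j, x⟩)
            then (1:ℤ) else 0) -
          (if 4 * (q : ℤ) * (k : ℕ) + 2 * q - W - 1 + t < (comb K G E q W).r (Sum.inr ⟨j, x⟩)
            then (1:ℤ) else 0))) (fun j _ => sum_nonneg fun x _ => ?_) (mem_univ k))
        · rw [← le_sub_iff_add_le', cnt_sub] at ht2
          refine ht2.trans (sum_le_sum fun x _ => ?_)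
          simp only [Sum.elim_inr]
          split_ifs <;> omega
        · have := (hG j).rD x
          simp only [Sum.elim_inr]
          split_ifs <;> omega
      exact le_trans (by push_cast; omega) (add_le_add b1 b2)

theorem exists_good (d : ℕ) : ∀ N ε : ℕ, ∃ G : Gad, Good G d N ε := by
  induction d with
  | zero => exact fun N ε => ⟨emptyGad, good_zero N ε⟩
  | succ d ih => exact fun N ε => good_step d N ε ih

end Vale.Agent.P302
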