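import Mathlib

namespace Vale.Agent.P302

/-- A bin packing instance: rational item sizes `a 0, …, a (n-1)` in `(0, 1]`. -/
def IsInstance {n : ℕ} (a : Fin n → ℚ) : Prop := ∀ i, 0 < a i ∧ a i ≤ 1

/-- The least number of bins: the least `m` such that the items can be distributed over `m`
bins, each of total size at most `1`. -/
noncomputable def OPT {n : ℕ} (a : Fin n → ℚ) : ℕ :=
  sInf {m : ℕ | ∃ f : Fin n → Fin m,
    ∀ b : Fin m, ∑ i ∈ Finset.univ.filter (fun i => f i = b), a i ≤ 1}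

/-- The set of distinct sizes. -/
def sizes {n : ℕ} (a : Fin n → ℚ) : Finset ℚ := Finset.univ.image a

/-- The multiplicity of a size. -/
def mult {n : ℕ} (a : Fin n → ℚ) (σ : ℚ) : ℕ := (Finset.univ.filter (fun i => a i = σ)).card

/-- Configurations: vectors of natural numbers indexed by the distinct sizes, of total size at
most `1`. -/
def Config {n : ℕ} (a : Fin n → ℚ) : Type :=
  {c : sizes a → ℕ // ∑ σ : sizes a, (σ : ℚ) * (c σ : ℚ) ≤ 1}

/-- The value of the Gilmore-Gomory configuration LP. -/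
noncomputable def LP {n : ℕ} (a : Fin n → ℚ) : ℝ :=
  sInf {v : ℝ | ∃ z : Finsupp (Config a) ℝ, (∀ c, 0 ≤ z c) ∧
    (∀ σ : sizes a, (mult a σ : ℝ) ≤ ∑ c ∈ z.support, (c.1 σ : ℝ) * z c) ∧
    v = ∑ c ∈ z.support, z c}

end Vale.Agent.P302
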