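import Vale.Agent.P302.Core

namespace Vale.Agent.P302

open Finset

lemma cnt_eq_card_filter {ι : Type} [Fintype ι] (p : ι → Prop) [DecidablePred p] :
    cnt p = ((univ.filter p).card : ℤ) := by
  unfold cnt
  simp

lemma cnt_le_of_rel {ι κ : Type} [Fintype ι] [Fintype κ] {P : ι → Prop} {Q : κ → Prop}
    [DecidablePred P] [DecidablePred Q] (r : ι → κ → Prop)
    (h1 : ∀ a, P a → ∃ b, Q b ∧ r a b) (h2 : ∀ a a' b, r a b → r a' b → a = a') :
    cnt P ≤ cnt Q := by
  rw [cnt_eq_card_filter, cnt_eq_card_filter]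
  have : (univ.filter P).card ≤ (univ.filter Q).card := by
    refine Finset.card_le_card_of_forall_subsingleton r (fun a ha => ?_) (fun b _ => ?_)
    · obtain ⟨b, hb, hr⟩ := h1 a (mem_filter.1 ha).2
      exact ⟨b, mem_filter.2 ⟨mem_univ _, hb⟩, hr⟩
    · intro a ha a' ha'
      exact h2 a a' b ha.2 ha'.2
  exact_mod_cast this

lemma cnt_add_not {ι : Type} [Fintype ι] (p q : ι → Prop) [DecidablePred p] [DecidablePred q]
    (h : ∀ a, q a ↔ ¬ p a) : cnt p + cnt q = Fintype.card ι := by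
  unfold cnt
  rw [← sum_add_distrib]
  calc (∑ a, ((if p a then (1:ℤ) else 0) + if q a then (1:ℤ) else 0)) = ∑ _a : ι, (1:ℤ) := by
        refine sum_congr rfl fun a _ => ?_
        by_cases hp : p a
        · simp [hp, h a]
        · simp [hp, h a]
    _ = Fintype.card ι := by simp

lemma cnt_or_le {ι : Type} [Fintype ι] (p q r : ι → Prop) [DecidablePred p] [DecidablePred q]
    [DecidablePred r] (h : ∀ a, p a → q a ∨ r a) : cnt p ≤ cnt q + cnt r := by
  unfold cnt
  rw [← sum_add_distrib]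
  refine sum_le_sum fun a _ => ?_
  have := h a
  split_ifs <;> first | omega | tauto

lemma cnt_shift {n : ℕ} (x x' : Fin n → ℤ) (h : ∀ i j, i < j → x' i ≤ x j) (t : ℤ) :
    cnt (fun i => t < x' i) ≤ cnt (fun i => t < x i) + 1 := by
  cases n with
  | zero => simp [cnt]
  | succ m =>
    unfold cnt
    rw [Fin.sum_univ_castSucc, Fin.sum_univ_succ]
    beta_reduce
    have h1 : (∑ i : Fin m, if t < x' i.castSucc then (1:ℤ) else 0) ≤
        ∑ i : Fin m, if t < x i.succ then (1:ℤ) else 0 := by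
      refine sum_le_sum fun i _ => ?_
      have := h i.castSucc i.succ Fin.castSucc_lt_succ
      split_ifs <;> omega
    split_ifs <;> omega

/-- pairing of half slots into items -/
lemma exists_pairing {ι : Type} [Fintype ι] (n : ℕ) (hn : n = Fintype.card ι) (u v : ι → ℤ) :
    ∃ (x : Fin n → ℤ) (p p' : ι → Fin n), (∀ a, x (p a) ≤ u a) ∧ (∀ a, x (p' a) ≤ v a) ∧
      (∀ i, ∃ a, x i = u a ∨ x i = v a) ∧
      (∀ f : Fin n → ℝ, ∑ a, f (p a) + ∑ a, f (p' a) = 2 * ∑ i, f i) ∧
      ∀ t, cnt (fun a => t < u a) + cnt (fun a => t < v a) ≤ 2 * cnt (fun i => t < x i) + 1 := by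
  have hcard : Fintype.card (ι ⊕ ι) = n * 2 := by rw [Fintype.card_sum, hn]; ring
  let e0 : Fin (n * 2) ≃ ι ⊕ ι := (Fintype.equivFinOfCardEq hcard).symm
  let val : ι ⊕ ι → ℤ := Sum.elim u v
  let σ := Tuple.sort (val ∘ e0)
  have hmono : Monotone ((val ∘ e0) ∘ σ) := Tuple.monotone_sort _
  let e : Fin n × Fin 2 ≃ ι ⊕ ι := finProdFinEquiv.trans (σ.trans e0)
  have he : ∀ i j : Fin n × Fin 2, (i.2 : ℕ) + 2 * i.1 ≤ (j.2 : ℕ) + 2 * j.1 →
      val (e i) ≤ val (e j) := by
    intro i j hij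
    exact hmono (a := finProdFinEquiv i) (b := finProdFinEquiv j) hij
  have hle : ∀ h, val (e ((e.symm h).1, 0)) ≤ val h := by
    intro h
    have := he ((e.symm h).1, 0) (e.symm h) (by simp)
    rwa [Equiv.apply_symm_apply] at this
  refine ⟨fun i => val (e (i, 0)), fun a => (e.symm (Sum.inl a)).1, fun a => (e.symm (Sum.inr a)).1,
    fun a => hle (Sum.inl a), fun a => hle (Sum.inr a), fun i => ?_, fun f => ?_, fun t => ?_⟩
  · beta_reduce
    rcases hh : e (i, 0) with a | a
    · exact ⟨a, Or.inl rfl⟩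
    · exact ⟨a, Or.inr rfl⟩
  · rw [← Fintype.sum_sum_type (fun h : ι ⊕ ι => f (e.symm h).1),
      Equiv.sum_comp e.symm (fun p : Fin n × Fin 2 => f p.1), Fintype.sum_prod_type]
    simp [mul_sum]
  · have h1 : cnt (fun a => t < u a) + cnt (fun a => t < v a) =
        cnt (fun i => t < val (e (i, 0))) + cnt (fun i => t < val (e (i, 1))) := by
      have a1 : cnt (fun h : ι ⊕ ι => t < val h) =
          cnt (fun a => t < u a) + cnt (fun a => t < v a) :=
        Fintype.sum_sum_type (fun h : ι ⊕ ι => if t < val h then (1:ℤ) else 0)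
      have a2 : cnt (fun h : ι ⊕ ι => t < val h) =
          ∑ p : Fin n × Fin 2, if t < val (e p) then (1:ℤ) else 0 :=
        (Equiv.sum_comp e (fun h : ι ⊕ ι => if t < val h then (1:ℤ) else 0)).symm
      rw [← a1, a2, Fintype.sum_prod_type]
      simp only [Fin.sum_univ_two, sum_add_distrib]
      rfl
    have h2 := cnt_shift (fun i => val (e (i, 0))) (fun i => val (e (i, 1)))
      (fun i j hij => he (i, 1) (j, 0) (by
        have : (i : ℕ) < j := hij
        simp only [Fin.val_one, Fin.val_zero]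
        omega)) t
    beta_reduce at h2 ⊢
    omega

end Vale.Agent.P302
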