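import Vale.Agent.P302.Pair
import Vale.Agent.P302.Defs

namespace Vale.Agent.P302

open Finset

lemma sum_cnt_fiber {ι : Type} [Fintype ι] {m : ℕ} (f : ι → Fin m) :
    ∑ β : Fin m, cnt (fun a => f a = β) = Fintype.card ι := by
  unfold cnt
  rw [sum_comm]
  simp

lemma sum_ge_cnt {ι : Type} [Fintype ι] (p : ι → Prop) [DecidablePred p] (L : ℤ) (x : ι → ℤ)
    (hx : ∀ a, 0 ≤ x a) : L * cnt p ≤ ∑ a, if p a then L + x a else 0 := by
  unfold cnt
  rw [mul_sum]
  refine sum_le_sum fun a _ => ?_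
  have := hx a
  split_ifs <;> omega

lemma exists_of_cnt_pos {ι : Type} [Fintype ι] (p : ι → Prop) [DecidablePred p]
    (h : 0 < cnt p) : ∃ a, p a := by
  by_contra hc
  push Not at hc
  rw [cnt_eq_zero hc] at h
  exact lt_irrefl _ h

lemma unique_of_cnt {ι : Type} [Fintype ι] (p : ι → Prop) [DecidablePred p]
    (h : cnt p ≤ 1) {a a' : ι} (ha : p a) (ha' : p a') : a = a' := by
  rw [cnt_eq_card_filter] at h
  have h' : (univ.filter p).card ≤ 1 := by exact_mod_cast h
  exact card_le_one.1 h' a (mem_filter.2 ⟨mem_univ _, ha⟩) a' (mem_filter.2 ⟨mem_univ _, ha'⟩)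

lemma single_le_bin {ι : Type} [Fintype ι] (p : ι → Prop) [DecidablePred p] (x : ι → ℤ)
    (hx : ∀ a, 0 ≤ x a) {a : ι} (ha : p a) : x a ≤ ∑ a, if p a then x a else 0 := by
  have := single_le_sum (f := fun a => if p a then x a else 0) (s := univ)
    (fun a _ => by have := hx a; split_ifs <;> omega) (mem_univ a)
  simpa [ha] using this

lemma no_packing (c : ℕ) (G : Gad) (hG : Good G (36 * c + 2) 1 0) (n : ℕ)
    (hn : n = Fintype.card G.ι) (xJ xU : Fin n → ℤ) (hJ0 : ∀ i, 0 ≤ xJ i) (hU0 : ∀ i, 0 ≤ xU i)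
    (hJ : ∀ t, cnt (fun a => t < G.r a) + cnt (fun a => t < G.D a) ≤
      2 * cnt (fun i => t < xJ i) + 1)
    (hU : ∀ t, cnt (fun a => t < G.l a) + cnt (fun a => t < G.s a) ≤
      2 * cnt (fun i => t < xU i) + 1)
    (M : ℤ) (hM : M = G.w + G.B) (m : ℕ) (fA : G.ι → Fin m) (fJ fU : Fin n → Fin m)
    (hbin : ∀ β, (∑ a, if fA a = β then 8 * (M + 1) + (M - (G.r a + G.l a)) else 0) +
      (∑ i, if fJ i = β then 6 * (M + 1) + xJ i else 0) +
      (∑ i, if fU i = β then 5 * (M + 1) + xU i else 0) ≤ 19 * (M + 1) + M) : n + c < m := by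
  by_contra hcon
  have hm : (m : ℤ) ≤ n + c := by exact_mod_cast not_lt.1 hcon
  have hw0 : (0:ℤ) ≤ G.w := Int.natCast_nonneg _
  have hB0 : (0:ℤ) ≤ G.B := Int.natCast_nonneg _
  have hcap : ∀ a, 0 ≤ M - (G.r a + G.l a) := by
    intro a
    have := hG.cap a
    have := hG.rD a
    have := hG.Dw a
    have := hG.lB a
    omega
  have hW : ∀ β, 8 * cnt (fun a => fA a = β) + 6 * cnt (fun i => fJ i = β) +
      5 * cnt (fun i => fU i = β) ≤ 19 := by
    intro β
    have h1 := sum_ge_cnt (fun a => fA a = β) (8 * (M + 1)) _ hcap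
    have h2 := sum_ge_cnt (fun i => fJ i = β) (6 * (M + 1)) _ hJ0
    have h3 := sum_ge_cnt (fun i => fU i = β) (5 * (M + 1)) _ hU0
    have h4 := hbin β
    by_contra h5
    have h6 : (20:ℤ) ≤ 8 * cnt (fun a => fA a = β) + 6 * cnt (fun i => fJ i = β) +
      5 * cnt (fun i => fU i = β) := by omega
    have h7 : (0:ℤ) ≤ M + 1 := by omega
    have := mul_le_mul_of_nonneg_left h6 h7
    nlinarith
  let good : Fin m → Prop := fun β => cnt (fun a => fA a = β) = 1 ∧ cnt (fun i => fJ i = β) = 1 ∧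
    cnt (fun i => fU i = β) = 1
  have hgood : 19 * (n : ℤ) ≤ 18 * m + cnt good := by
    have h1 : ∑ β : Fin m, (8 * cnt (fun a => fA a = β) + 6 * cnt (fun i => fJ i = β) +
        5 * cnt (fun i => fU i = β)) ≤ ∑ β : Fin m, (18 + if good β then (1:ℤ) else 0) := by
      refine sum_le_sum fun β _ => ?_
      have := hW β
      have := cnt_nonneg (fun a => fA a = β)
      have := cnt_nonneg (fun i => fJ i = β)
      have := cnt_nonneg (fun i => fU i = β)
      by_cases hg : good β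
      · rw [if_pos hg]; omega
      · rw [if_neg hg]
        simp only [good] at hg
        omega
    simp only [sum_add_distrib, ← mul_sum, sum_cnt_fiber, Fintype.card_fin, sum_const, card_univ,
      nsmul_eq_mul, ← hn] at h1
    have h2 : cnt good = ∑ β : Fin m, if good β then (1:ℤ) else 0 := rfl
    rw [h2]
    omega
  have hbad : cnt (fun a => ¬ good (fA a)) ≤ 18 * c := by
    have h1 := cnt_add_not (fun a => good (fA a)) (fun a => ¬ good (fA a)) (fun _ => Iff.rfl)
    have h2 : cnt good ≤ cnt (fun a => good (fA a)) := by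
      refine cnt_le_of_rel (fun β a => fA a = β) (fun β hβ => ?_) (fun β β' a h h' => h ▸ h')
      obtain ⟨a, ha⟩ := exists_of_cnt_pos (fun a => fA a = β) (by rw [hβ.1]; norm_num)
      exact ⟨a, by rw [ha]; exact hβ, ha⟩
    rw [← hn] at h1
    omega
  have key : ∀ a, ∃ y z : ℤ, y + z ≤ G.r a + G.l a ∧ 0 ≤ z ∧
      ((good (fA a) ∧ (∃ j, fJ j = fA a ∧ xJ j = y) ∧ (∃ u, fU u = fA a ∧ xU u = z)) ∨
        (¬ good (fA a) ∧ (G.B : ℤ) ≤ z)) := by
    intro a
    by_cases hg : good (fA a)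
    · obtain ⟨j, hj⟩ := exists_of_cnt_pos (fun i => fJ i = fA a) (by rw [hg.2.1]; norm_num)
      obtain ⟨u, hu⟩ := exists_of_cnt_pos (fun i => fU i = fA a) (by rw [hg.2.2]; norm_num)
      refine ⟨xJ j, xU u, ?_, hU0 u, Or.inl ⟨hg, ⟨j, hj, rfl⟩, ⟨u, hu, rfl⟩⟩⟩
      have h1 := single_le_bin (fun a' => fA a' = fA a)
        (fun a => 8 * (M + 1) + (M - (G.r a + G.l a))) (fun a => by have := hcap a; omega)
        (a := a) rfl
      have h2 := single_le_bin (fun i => fJ i = fA a)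
        (fun i => 6 * (M + 1) + xJ i) (fun i => by have := hJ0 i; omega) hj
      have h3 := single_le_bin (fun i => fU i = fA a)
        (fun i => 5 * (M + 1) + xU i) (fun i => by have := hU0 i; omega) hu
      have h4 := hbin (fA a)
      omega
    · exact ⟨G.r a + G.l a - G.B, G.B, by omega, hB0, Or.inr ⟨hg, le_refl _⟩⟩
  choose y z hyz hz0 hcase using key
  have huniq : ∀ a a', good (fA a) → fA a' = fA a → a = a' := fun a a' hg h =>
    unique_of_cnt (fun a' => fA a' = fA a) hg.1.le rfl h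
  obtain ⟨t, -, -, ht1, ht2⟩ := hG.main y z hyz (fun t ht => by
    have h1 : cnt (fun a => z a ≤ t) ≤ cnt (fun i => xU i ≤ t) := by
      refine cnt_le_of_rel (fun a u => good (fA a) ∧ fU u = fA a) (fun a ha => ?_)
        (fun a a' u h h' => huniq a a' h.1 (h'.2.symm.trans h.2))
      rcases hcase a with ⟨hg, -, u, hu, hu'⟩ | ⟨-, h⟩
      · exact ⟨u, by omega, hg, hu⟩
      · omega
    have h2 := cnt_add_not (fun i => t < xU i) (fun i => xU i ≤ t) (fun _ => not_lt.symm)
    have h3 := cnt_add_not (fun a => t < G.l a) (fun a => G.l a ≤ t) (fun _ => not_lt.symm)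
    have h4 := cnt_add_not (fun a => t < G.s a) (fun a => G.s a ≤ t) (fun _ => not_lt.symm)
    have h5 := hU t
    rw [Fintype.card_fin] at h2
    rw [← hn] at h3 h4
    push_cast
    omega)
  have h0 : cnt (fun a => z a < -((0:ℕ) : ℤ)) = 0 := cnt_eq_zero fun a => by
    have := hz0 a
    push_cast
    omega
  have h1 := cnt_or_le (fun a => y a ≤ t) (fun a => good (fA a) ∧ y a ≤ t) (fun a => ¬ good (fA a))
    (fun a ha => by tauto)
  have h2 : cnt (fun a => good (fA a) ∧ y a ≤ t) ≤ cnt (fun i => xJ i ≤ t) := by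
    refine cnt_le_of_rel (fun a j => good (fA a) ∧ fJ j = fA a) (fun a ha => ?_)
      (fun a a' u h h' => huniq a a' h.1 (h'.2.symm.trans h.2))
    rcases hcase a with ⟨hg, ⟨j, hj, hj'⟩, -⟩ | ⟨h, -⟩
    · exact ⟨j, by omega, hg, hj⟩
    · exact absurd ha.1 h
  have h3 := cnt_add_not (fun i => t < xJ i) (fun i => xJ i ≤ t) (fun _ => not_lt.symm)
  have h4 := cnt_add_not (fun a => t < y a) (fun a => y a ≤ t) (fun _ => not_lt.symm)
  have h5 := hJ t
  rw [Fintype.card_fin] at h3
  rw [← hn] at h4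
  push_cast at ht2
  omega

/-- An upper bound on the LP value from a family of three-item bins taken with weight one half. -/
lemma LP_le {n : ℕ} (a : Fin n → ℚ) {H : Type} [Fintype H] (i1 i2 i3 : H → Fin n)
    (hfit : ∀ h, a (i1 h) + a (i2 h) + a (i3 h) ≤ 1)
    (hcov : ∀ f : Fin n → ℝ, ∑ h, (f (i1 h) + f (i2 h) + f (i3 h)) = 2 * ∑ i, f i) :
    LP a ≤ (Fintype.card H : ℝ) / 2 := by
  classical
  have hmem : ∀ i, a i ∈ sizes a := fun i => mem_image_of_mem a (mem_univ i)
  have hone : ∀ i, (∑ σ : sizes a, (σ : ℚ) * ((if a i = σ then 1 else 0 : ℕ) : ℚ)) = a i := by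
    intro i
    rw [Finset.sum_eq_single (⟨a i, hmem i⟩ : sizes a)]
    · simp
    · intro b _ hb
      rw [if_neg (fun h => hb (Subtype.ext h.symm))]
      simp
    · simp
  let cfg : H → Config a := fun h => ⟨fun σ => (if a (i1 h) = σ then 1 else 0) +
    (if a (i2 h) = σ then 1 else 0) + (if a (i3 h) = σ then 1 else 0), by
      simp only [Nat.cast_add, mul_add, sum_add_distrib, hone]
      exact hfit h⟩
  let z : Config a →₀ ℝ := ∑ h, Finsupp.single (cfg h) (1 / 2 : ℝ)
  have hsum : ∀ g : Config a → ℝ, (∑ c ∈ z.support, g c * z c) = ∑ h, g (cfg h) * (1 / 2) := by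
    intro g
    have : (∑ c ∈ z.support, g c * z c) = z.sum (fun c x => g c * x) := rfl
    rw [this, ← Finsupp.sum_finsetSum_index (by simp) (by intros; ring)]
    refine sum_congr rfl fun h _ => ?_
    rw [Finsupp.sum_single_index (by simp)]
  refine csInf_le ⟨0, ?_⟩ ⟨z, ?_, ?_, ?_⟩
  · rintro v ⟨z, hz, -, rfl⟩
    exact sum_nonneg fun c _ => hz c
  · intro c
    simp only [z, Finsupp.finsetSum_apply]
    refine sum_nonneg fun h _ => ?_
    rw [Finsupp.single_apply]
    split_ifs <;> norm_num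
  · intro σ
    rw [hsum (fun c => (c.1 σ : ℝ)), ← sum_mul]
    have h1 := hcov (fun i => if a i = σ then 1 else 0)
    have h2 : (∑ h, ((cfg h).1 σ : ℝ)) = ∑ h, ((if a (i1 h) = σ then (1:ℝ) else 0) +
        (if a (i2 h) = σ then (1:ℝ) else 0) + (if a (i3 h) = σ then (1:ℝ) else 0)) := by
      refine sum_congr rfl fun h _ => ?_
      simp [cfg]
    have h3 : (mult a σ : ℝ) = ∑ i, if a i = σ then (1:ℝ) else 0 := by
      simp [mult]
    rw [h2, h1, h3]
    linarith
  · have := hsum (fun _ => 1)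
    simp only [one_mul] at this
    rw [this]
    simp
    ring

theorem exists_gap (c : ℕ) : ∃ (n : ℕ) (a : Fin n → ℚ), IsInstance a ∧ (∀ i, 1 / 4 < a i) ∧
    LP a + c < OPT a := by
  obtain ⟨G, hG⟩ := exists_good (36 * c + 2) 1 0
  obtain ⟨n, hn⟩ : ∃ n, n = Fintype.card G.ι := ⟨_, rfl⟩
  obtain ⟨xJ, pJ, pJ', hJ1, hJ2, hJ3, hJ4, hJ5⟩ := exists_pairing n hn G.r G.D
  obtain ⟨xU, pU, pU', hU1, hU2, hU3, hU4, hU5⟩ := exists_pairing n hn G.l G.s
  obtain ⟨M, hM⟩ : ∃ M : ℤ, M = G.w + G.B := ⟨_, rfl⟩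
  have hw0 : (0:ℤ) ≤ G.w := Int.natCast_nonneg _
  have hB0 : (0:ℤ) ≤ G.B := Int.natCast_nonneg _
  have hJ0 : ∀ i, 0 ≤ xJ i ∧ xJ i ≤ M := by
    intro i
    obtain ⟨a, ha⟩ := hJ3 i
    have := hG.r0 a
    have := hG.rD a
    have := hG.Dw a
    omega
  have hU0 : ∀ i, 0 ≤ xU i ∧ xU i ≤ M := by
    intro i
    obtain ⟨a, ha⟩ := hU3 i
    have := hG.cap a
    have := hG.rD a
    have := hG.s0 a
    have := hG.lB a
    omega
  have hcap : ∀ a, 0 ≤ G.r a + G.l a ∧ G.r a + G.l a ≤ M := by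
    intro a
    have := hG.cap a
    have := hG.r0 a
    have := hG.rD a
    have := hG.s0 a
    have := hG.Dw a
    have := hG.lB a
    omega
  let sz : G.ι ⊕ Fin n ⊕ Fin n → ℤ := Sum.elim (fun a => 8 * (M + 1) + (M - (G.r a + G.l a)))
    (Sum.elim (fun i => 6 * (M + 1) + xJ i) (fun i => 5 * (M + 1) + xU i))
  have hsz : ∀ k, 5 * (M + 1) ≤ sz k ∧ sz k ≤ 19 * (M + 1) + M := by
    rintro (a | i | i)
    · have := hcap a
      simp only [sz, Sum.elim_inl]
      omega
    · have := hJ0 i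
      simp only [sz, Sum.elim_inl, Sum.elim_inr]
      omega
    · have := hU0 i
      simp only [sz, Sum.elim_inr]
      omega
  let e := Fintype.equivFin (G.ι ⊕ Fin n ⊕ Fin n)
  obtain ⟨C, hC⟩ : ∃ C : ℤ, C = 19 * (M + 1) + M := ⟨_, rfl⟩
  have hC0 : (0:ℚ) < C := by
    have : (0:ℤ) < C := by omega
    exact_mod_cast this
  let a : Fin (Fintype.card (G.ι ⊕ Fin n ⊕ Fin n)) → ℚ := fun i => (sz (e.symm i) : ℚ) / C
  have ha : ∀ k, a (e k) = (sz k : ℚ) / C := fun k => by simp [a]
  have hq : ∀ i, 1 / 4 < a i := by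
    intro i
    simp only [a]
    rw [div_lt_div_iff₀ (by norm_num) hC0]
    have := hsz (e.symm i)
    have h2 : C < sz (e.symm i) * 4 := by omega
    have h3 : (C : ℚ) < (sz (e.symm i) : ℚ) * 4 := by exact_mod_cast h2
    linarith
  have hle : ∀ i, a i ≤ 1 := by
    intro i
    simp only [a]
    rw [div_le_one hC0]
    have := hsz (e.symm i)
    have h2 : sz (e.symm i) ≤ C := by omega
    exact_mod_cast h2
  refine ⟨_, a, fun i => ⟨lt_trans (by norm_num) (hq i), hle i⟩, hq, ?_⟩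
  have hLP : LP a ≤ n := by
    have := LP_le a (H := G.ι ⊕ G.ι) (fun h => e (Sum.inl (Sum.elim id id h)))
      (fun h => e (Sum.inr (Sum.inl (Sum.elim pJ pJ' h))))
      (fun h => e (Sum.inr (Sum.inr (Sum.elim pU pU' h)))) ?_ ?_
    · refine this.trans (le_of_eq ?_)
      rw [Fintype.card_sum, ← hn]
      push_cast
      ring
    · intro h
      rw [ha, ha, ha, ← add_div, ← add_div, div_le_one hC0]
      have : sz (Sum.inl (Sum.elim id id h)) + sz (Sum.inr (Sum.inl (Sum.elim pJ pJ' h))) +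
          sz (Sum.inr (Sum.inr (Sum.elim pU pU' h))) ≤ C := by
        rcases h with b | b
        · have := hJ1 b
          have := hU1 b
          simp only [sz, Sum.elim_inl, Sum.elim_inr, id]
          omega
        · have := hJ2 b
          have := hU2 b
          have := hG.cap b
          simp only [sz, Sum.elim_inl, Sum.elim_inr, id]
          omega
      exact_mod_cast this
    · intro f
      rw [← Equiv.sum_comp e f]
      have h1 := hJ4 (fun i => f (e (Sum.inr (Sum.inl i))))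
      have h2 := hU4 (fun i => f (e (Sum.inr (Sum.inr i))))
      simp only [Fintype.sum_sum_type, sum_add_distrib, Sum.elim_inl, Sum.elim_inr, id]
      linarith
  have hOPT : n + c < OPT a := by
    have hne : {m : ℕ | ∃ f : Fin (Fintype.card (G.ι ⊕ Fin n ⊕ Fin n)) → Fin m,
        ∀ b : Fin m, ∑ i ∈ Finset.univ.filter (fun i => f i = b), a i ≤ 1}.Nonempty := by
      refine ⟨_, id, fun b => ?_⟩
      have : Finset.univ.filter (fun i => id i = b) = {b} := by
        ext i
        simp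
      rw [this, sum_singleton]
      exact hle b
    have hmem : ∃ f : Fin (Fintype.card (G.ι ⊕ Fin n ⊕ Fin n)) → Fin (OPT a),
        ∀ b : Fin (OPT a), ∑ i ∈ Finset.univ.filter (fun i => f i = b), a i ≤ 1 :=
      Nat.sInf_mem hne
    obtain ⟨f, hf⟩ := hmem
    refine no_packing c G hG n hn xJ xU (fun i => (hJ0 i).1) (fun i => (hU0 i).1) hJ5 hU5 M hM _
      (fun b => f (e (Sum.inl b))) (fun i => f (e (Sum.inr (Sum.inl i))))
      (fun i => f (e (Sum.inr (Sum.inr i)))) (fun β => ?_)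
    have h1 := hf β
    rw [sum_filter, ← Equiv.sum_comp e] at h1
    have h2 : (∑ k, if f (e k) = β then a (e k) else 0) =
        ((∑ k, if f (e k) = β then sz k else 0 : ℤ) : ℚ) / C := by
      push_cast
      rw [sum_div]
      refine sum_congr rfl fun k _ => ?_
      rw [ha]
      split_ifs <;> simp
    rw [h2, div_le_one hC0] at h1
    have h3 : (∑ k, if f (e k) = β then sz k else 0 : ℤ) ≤ C := by exact_mod_cast h1
    rw [Fintype.sum_sum_type, Fintype.sum_sum_type, hC, ← add_assoc] at h3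
    exact h3
  have : ((n + c : ℕ) : ℝ) < (OPT a : ℝ) := by exact_mod_cast hOPT
  push_cast at this
  linarith

end Vale.Agent.P302
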